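import Vale.Agent.P229.Calc

/-!
# P229: the multiplier identity for the linearised operator

For the operator `op w = V (V w) - a w₁₁ + β w₁ + c w₂`, `V = ∂₂ - b ∂₁`, and arbitrary `C¹`
multipliers `X`, `Y` the product `op w · (X w₁ + Y V w)` is a divergence plus a quadratic form.
-/

namespace Vale.Agent.P229

open scoped ContDiff

namespace Coef

variable (P : Coef) (X Y w : P2 → ℝ)

/-- Second component of the flux. -/
noncomputable def fluxY (x : P2) : ℝ :=
  P.V w x * X x * d1 w x + Y x * P.V w x ^ 2 / 2 + P.a x * Y x * d1 w x ^ 2 / 2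

/-- First component of the flux. -/
noncomputable def fluxX (x : P2) : ℝ :=
  -(P.b x * (P.V w x * X x * d1 w x)) - X x * P.V w x ^ 2 / 2
    - P.b x * Y x * P.V w x ^ 2 / 2 - P.a x * X x * d1 w x ^ 2 / 2
    - P.a x * Y x * d1 w x * P.V w x - P.b x * (P.a x * Y x) * d1 w x ^ 2 / 2

noncomputable def quu (x : P2) : ℝ :=
  d1 X x / 2 + (d1 P.b x * Y x - P.V Y x) / 2

noncomputable def qpp (x : P2) : ℝ :=
  d1 (fun y => P.a y * X y) x / 2 + P.β x * X x - P.V (fun y => P.a y * Y y) x / 2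
    - d1 P.b x * (P.a x * Y x) / 2

noncomputable def qpu (x : P2) : ℝ :=
  d1 (fun y => P.a y * Y y) x + P.β x * Y x - P.V X x

variable {P X Y w}

lemma contDiff_V {n : ℕ} (hb : ContDiff ℝ n P.b) (hw : ContDiff ℝ (n + 1 : ℕ) w) :
    ContDiff ℝ n (P.V w) := by
  unfold Coef.V
  exact (contDiff_d2 hw).sub (hb.mul (contDiff_d1 hw))

theorem multiplier_identity (hb : ContDiff ℝ 1 P.b) (ha : ContDiff ℝ 1 P.a)
    (hX : ContDiff ℝ 1 X) (hY : ContDiff ℝ 1 Y) (hw : ContDiff ℝ 2 w) (x : P2) :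
    P.op w x * (X x * d1 w x + Y x * P.V w x) =
      d2 (P.fluxY X Y w) x + d1 (P.fluxX X Y w) x
        + P.quu X Y x * P.V w x ^ 2 + P.qpp X Y x * d1 w x ^ 2
        + P.qpu X Y x * d1 w x * P.V w x
        + P.c x * d2 w x * (X x * d1 w x + Y x * P.V w x) := by
  have db := (hb.differentiable one_ne_zero) x
  have da := (ha.differentiable one_ne_zero) x
  have dX := (hX.differentiable one_ne_zero) x
  have dY := (hY.differentiable one_ne_zero) x
  have dp : DifferentiableAt ℝ (d1 w) x := (contDiff_d1 (n := 1) hw).differentiable (by norm_num) x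
  have du : DifferentiableAt ℝ (P.V w) x :=
    (contDiff_V (n := 1) hb hw).differentiable (by norm_num) x
  have dq : DifferentiableAt ℝ (d2 w) x := (contDiff_d2 (n := 1) hw).differentiable (by norm_num) x
  have hu1 : d1 (P.V w) x = d1 (d2 w) x - (d1 P.b x * d1 w x + P.b x * d1 (d1 w) x) := by
    show d1 (fun y => d2 w y - P.b y * d1 w y) x = _
    rw [d1_sub dq (db.fun_mul dp), d1_mul db dp]
  simp only [pow_two, Coef.op]
  have eY : d2 (P.fluxY X Y w) x =
      (d2 (P.V w) x * X x * d1 w x + P.V w x * d2 X x * d1 w x + P.V w x * X x * d2 (d1 w) x)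
      + (d2 Y x * (P.V w x * P.V w x) + 2 * Y x * P.V w x * d2 (P.V w) x) / 2
      + (d2 P.a x * Y x * (d1 w x * d1 w x) + P.a x * d2 Y x * (d1 w x * d1 w x)
        + 2 * P.a x * Y x * d1 w x * d2 (d1 w) x) / 2 := by
    unfold fluxY d2
    simp only [pow_two, div_eq_mul_inv]
    simp (disch := fun_prop) only [fderiv_fun_add, fderiv_fun_mul, fderiv_fun_const, 
      Pi.zero_apply, add_apply, smul_apply, zero_apply, smul_eq_mul]
    ring
  have eX : d1 (P.fluxX X Y w) x =
      -(d1 P.b x * (P.V w x * X x * d1 w x))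
      - P.b x * (d1 (P.V w) x * X x * d1 w x + P.V w x * d1 X x * d1 w x
        + P.V w x * X x * d1 (d1 w) x)
      - (d1 X x * (P.V w x * P.V w x) + 2 * X x * P.V w x * d1 (P.V w) x) / 2
      - (d1 P.b x * Y x * (P.V w x * P.V w x) + P.b x * d1 Y x * (P.V w x * P.V w x)
        + 2 * P.b x * Y x * P.V w x * d1 (P.V w) x) / 2
      - (d1 P.a x * X x * (d1 w x * d1 w x) + P.a x * d1 X x * (d1 w x * d1 w x)
        + 2 * P.a x * X x * d1 w x * d1 (d1 w) x) / 2
      - (d1 P.a x * Y x * d1 w x * P.V w x + P.a x * d1 Y x * d1 w x * P.V w x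
        + P.a x * Y x * d1 (d1 w) x * P.V w x + P.a x * Y x * d1 w x * d1 (P.V w) x)
      - (d1 P.b x * (P.a x * Y x) * (d1 w x * d1 w x)
        + P.b x * (d1 P.a x * Y x + P.a x * d1 Y x) * (d1 w x * d1 w x)
        + 2 * P.b x * (P.a x * Y x) * d1 w x * d1 (d1 w) x) / 2 := by
    have dp' : DifferentiableAt ℝ (fun y => fderiv ℝ w y (1, 0)) x := dp
    unfold fluxX d1
    simp only [pow_two, div_eq_mul_inv]
    simp (disch := fun_prop) only [fderiv_fun_add, fderiv_fun_sub, fderiv_fun_neg, fderiv_fun_mul,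
      fderiv_fun_const, Pi.zero_apply, add_apply, sub_apply,
      neg_apply, smul_apply, zero_apply, smul_eq_mul]
    ring
  rw [eY, eX]
  simp only [quu, qpp, qpu, Coef.V, d1_mul da dX, d1_mul da dY, d2_mul da dY, d1_d2 hw] at hu1 ⊢
  rw [hu1]
  ring

end Coef

end Vale.Agent.P229
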